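import Vale.Agent.Lib.P123.Main

namespace Vale.Agent.Results.P123.QuadraticCrouzeix

/-- Crouzeix's inequality for quadratic polynomials: on a nonzero complex Hilbert space `H`, for
every bounded operator `A` and every polynomial `P` of degree at most two, if `M` bounds `|P|` on
the numerical range of `A` then `‖P(A)‖ ≤ 2 M`. Here `inner ℂ v (A v)` is conjugate linear in `v`
and linear in `A v`, so it is the number `⟨A v, v⟩` of the problem. -/
theorem result {H : Type*} [NormedAddCommGroup H] [InnerProductSpace ℂ H] [CompleteSpace H]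
    [Nontrivial H] (A : H →L[ℂ] H) (P : Polynomial ℂ) (hP : P.natDegree ≤ 2) (M : ℝ)
    (hM : ∀ v : H, ‖v‖ = 1 → ‖P.eval (inner ℂ v (A v))‖ ≤ M) :
    ‖Polynomial.aeval A P‖ ≤ 2 * M :=
  Vale.Agent.Lib.P123.polynomial_case A P hP M hM

end Vale.Agent.Results.P123.QuadraticCrouzeix
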